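import Vale.Agent.P318.Q.All

/-!
Uniform Sparsest Cut is NP-hard to approximate within some fixed factor `C > 1`.
-/

open Vale.Agent.P318.Q Vale.Agent.Lib.NP

theorem Vale.Agent.Results.P318.CApxHard.result :
    ∃ C : ℝ, 1 < C ∧ GapNPHard C ∧ (HasApprox C → ∀ L, InNP L → InP L) :=
  final_all
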